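import Vale.Agent.P330.Exist
import Vale.Agent.P330Q.FinalQ
import Vale.Agent.P330Q.HalfA
import Vale.Agent.P330Q.OFinal

namespace Vale.Agent.Results.P330.A_full

open Vale.Agent.P330 Turing

/-- The PCP theorem for PPAD with generalized circuits of quasi-linear size. -/
theorem result :
    ∃ (ε δ : ℚ) (p : Polynomial ℕ) (c : ℕ) (R : EOL → GCircuit) (D : EOL × List ℚ → List Bool)
      (MR : TM2ComputableInPolyTime codeEOL codeGC R)
      (MD : TM2ComputableInPolyTime (bPair codeEOL (bList bRat)) (bList bBool) D),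
      0 < ε ∧ ε < 1 ∧ 0 < δ ∧ δ < 1 ∧ (∀ j, Finite (MR.tm.Γ j)) ∧ (∀ j, Finite (MD.tm.Γ j)) ∧
      ∀ I : EOL, I.Valid → (R I).Valid ∧
        (codeGC (R I)).length ≤ c * (codeEOL I).length * Nat.log 2 (codeEOL I).length ^ c ∧
        (∃ x, (R I).Acceptable ε δ p x) ∧ ∀ x, (R I).Acceptable ε δ p x → I.Sol (D (I, x)) :=
  P330Q.finalQ exist P330Q.halfA P330O.ampQ_holds

end Vale.Agent.Results.P330.A_full
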