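import Vale.Agent.P330.Hard
import Vale.Agent.P330.Final
import Vale.Agent.P330.Exist
import Vale.Agent.P330.AmpTop
import Vale.Agent.P330.Seq
import Vale.Agent.P330.Out
import Vale.Agent.P330.Compile
import Vale.Agent.P330.Init
import Vale.Agent.P330.Absorb
import Vale.Agent.P330.Merge
import Vale.Agent.P330.Iter
import Vale.Agent.P330.Exp
import Vale.Agent.P330.Unit
import Vale.Agent.P330.Round

namespace Vale.Agent.Results.P330.A_poly

open Vale.Agent.P330 Turing

/-- The PCP theorem for PPAD with generalized circuits of polynomial size. -/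
theorem result :
    ∃ (ε δ : ℚ) (p q : Polynomial ℕ) (R : EOL → GCircuit) (D : EOL × List ℚ → List Bool)
      (MR : TM2ComputableInPolyTime codeEOL codeGC R)
      (MD : TM2ComputableInPolyTime (bPair codeEOL (bList bRat)) (bList bBool) D),
      0 < ε ∧ ε < 1 ∧ 0 < δ ∧ δ < 1 ∧ (∀ j, Finite (MR.tm.Γ j)) ∧ (∀ j, Finite (MD.tm.Γ j)) ∧
      ∀ I : EOL, I.Valid → (R I).Valid ∧ (codeGC (R I)).length ≤ q.eval (codeEOL I).length ∧
        (∃ x, (R I).Acceptable ε δ p x) ∧ ∀ x, (R I).Acceptable ε δ p x → I.Sol (D (I, x)) :=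
  final exist Hard.hard (Amp.ampTop Amp.seq Amp.compile
    (Amp.iter Amp.init Amp.absorb Amp.merge Amp.compile (Amp.round Amp.expander Amp.unit)) Amp.out)

end Vale.Agent.Results.P330.A_poly
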